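import Vale.Agent.P032W.S5.H483.Irr

/-!
# P032: moving points and persistent colours (second shell, generic rotations)

* `Mx.curve_perp`: a colour which persists along a curve `γ` near `γ t0` and is in the palette of a
  point `q` at distance one of `γ t0`: then `γ' ⟂ γ t0 - q`.
* `Mx.shell2`: the second shell principle (wild form).
* `Rot U z l` : the open dense set of the angles `t` at which the palette of `z + l * cis t` is locally
  constant; `Mx.rot_disj`: for such `t` the palettes of `z + l * cis t` and of any point `z + m * cis t`,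
  `‖l - m‖ = 1`, `l`, `m` not collinear, are disjoint.
-/

open Set Filter Topology Metric

noncomputable section

namespace Vale.Agent.P032.Six

variable {k : ℕ} {U : Fin k → Set ℂ}

theorem hasDerivAt_sq_curve {γ : ℝ → ℂ} {γ' : ℂ} {t0 : ℝ} (hγ : HasDerivAt γ γ' t0) (q : ℂ) :
    HasDerivAt (fun t : ℝ => ((γ t).re - q.re) ^ 2 + ((γ t).im - q.im) ^ 2 - 1)
      (2 * (((γ t0).re - q.re) * γ'.re + ((γ t0).im - q.im) * γ'.im)) t0 := by
  have hre : HasDerivAt (fun t => (γ t).re) γ'.re t0 :=
    Complex.reCLM.hasFDerivAt.comp_hasDerivAt t0 hγ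
  have him : HasDerivAt (fun t => (γ t).im) γ'.im t0 :=
    Complex.imCLM.hasFDerivAt.comp_hasDerivAt t0 hγ
  have h := (((hre.sub_const q.re).pow 2).add ((him.sub_const q.im).pow 2)).sub_const (1 : ℝ)
  refine h.congr_deriv ?_
  simp
  ring

/-- a colour persisting along a curve through `γ t0` is not in the palette of a point `q` at
distance one, unless the curve is orthogonal to `γ t0 - q` -/
theorem Mx.curve_perp (h : Mx U) {γ : ℝ → ℂ} {γ' : ℂ} {t0 : ℝ} (hγ : HasDerivAt γ γ' t0)
    (hc : Continuous γ) {i : Fin k} (hi : ∀ᶠ s in 𝓝 t0, i ∈ Pal U (γ s)) {q : ℂ}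
    (hq : dist (γ t0) q = 1) (hiq : i ∈ Pal U q) :
    ((γ t0).re - q.re) * γ'.re + ((γ t0).im - q.im) * γ'.im = 0 := by
  by_contra hne
  obtain ⟨η, hη, hball⟩ := Metric.mem_nhds_iff.1 hi
  obtain ⟨t1, t2, h1, h2, h3, h4⟩ := both_signs (hasDerivAt_sq_curve hγ q)
    ((dist_eq_one_iff _ _).1 hq) (by simpa using hne) hη
  have hQ : IsPreconnected (γ '' ball t0 η) :=
    (convex_ball t0 η).isPreconnected.image _ hc.continuousOn
  refine h.wlemma (i := i) hQ ?_ (z := q)
    ⟨t1, by rw [mem_ball, Real.dist_eq]; exact h1, rfl⟩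
    ⟨t2, by rw [mem_ball, Real.dist_eq]; exact h2, rfl⟩
    ((dist_lt_one_iff _ _).2 h3) ((one_lt_dist_iff _ _).2 h4) hiq
  rintro _ ⟨r, hr, rfl⟩
  exact hball hr

/-- **Second shell**: the colours of an arc through `p` of `S(z)` are absent (in `Pal`) from all points
at distance one of `p` except `z` and the antipode `2p - z` -/
theorem Mx.shell2 (h : Mx U) {z p v : ℂ} (hzp : dist p z = 1) {P : Set (Fin k)}
    (hJ : ∀ᶠ q in 𝓝[sphere z 1] p, P ⊆ Pal U q) (hv : dist p v = 1) (hvz : v ≠ z)
    (hvz2 : v + z ≠ 2 * p) : Disjoint P (Pal U v) := by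
  rw [Set.disjoint_left]
  intro i hi hiv
  rcases h.partner_line hzp (hJ.mono fun q hq => hq hi) hv hiv with h1 | h1
  · exact hvz h1
  · exact hvz2 h1

/-- the angles at which the palette of `z + l * cis t` is locally constant -/
def Rot (U : Fin k → Set ℂ) (z l : ℂ) : Set ℝ :=
  {t | ∀ᶠ s in 𝓝 t, Pal U (z + l * cis s) = Pal U (z + l * cis t)}

theorem isOpen_Rot (U : Fin k → Set ℂ) (z l : ℂ) : IsOpen (Rot U z l) := by
  rw [isOpen_iff_mem_nhds]
  intro t ht
  have ht' : ∀ᶠ s in 𝓝 t, Pal U (z + l * cis s) = Pal U (z + l * cis t) := ht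
  filter_upwards [ht'.eventually_nhds, ht'] with r hr hr'
  have : ∀ᶠ s in 𝓝 r, Pal U (z + l * cis s) = Pal U (z + l * cis r) := by
    filter_upwards [hr] with s hs
    rw [hs, hr']
  exact this

theorem dense_Rot (U : Fin k → Set ℂ) (z l : ℂ) : Dense (Rot U z l) := by
  intro t
  rw [_root_.mem_closure_iff]
  intro o ho hto
  have hne : ((fun s => (Pal U (z + l * cis s)).ncard) '' o).Nonempty := ⟨_, t, hto, rfl⟩
  obtain ⟨_, ⟨r, hr, rfl⟩, hrmin⟩ :=
    WellFounded.has_min (r := ((· < ·) : ℕ → ℕ → Prop)) wellFounded_lt _ hne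
  refine ⟨r, hr, ?_⟩
  have hcont : Continuous fun s : ℝ => z + l * cis s :=
    continuous_const.add (continuous_const.mul continuous_cis)
  have h1 : ∀ᶠ s in 𝓝 r, Pal U (z + l * cis s) ⊆ Pal U (z + l * cis r) :=
    hcont.continuousAt.eventually (pal_nhd U _)
  have h2 : ∀ᶠ s in 𝓝 r, Pal U (z + l * cis s) = Pal U (z + l * cis r) := by
    filter_upwards [h1, ho.mem_nhds hr] with s hs hso
    refine Set.eq_of_subset_of_ncard_le hs ?_ (Set.toFinite _)
    exact not_lt.1 (hrmin _ ⟨s, hso, rfl⟩)
  exact h2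

/-- finitely many rotations have a common dense open set of good angles, also after shifts -/
theorem dense_rots {ι : Type*} [Finite ι] (U : Fin k → Set ℂ) (z l : ι → ℂ) :
    Dense (⋂ i, Rot U (z i) (l i)) ∧ IsOpen (⋂ i, Rot U (z i) (l i)) :=
  ⟨dense_iInter_of_isOpen (fun _ => isOpen_Rot U _ _) fun _ => dense_Rot U _ _,
    isOpen_iInter_of_finite fun _ => isOpen_Rot U _ _⟩

theorem hasDerivAt_rot (z l : ℂ) (t : ℝ) :
    HasDerivAt (fun s : ℝ => z + l * cis s) (l * (Complex.I * cis t)) t :=
  ((hasDerivAt_cis t).const_mul l).const_add z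

/-- **Generic rotation**: for `t ∈ Rot U z l` the palettes of `z + l * cis t` and of
`z + m * cis t`, at distance one, are disjoint if `l`, `m` are not collinear. -/
theorem Mx.rot_disj (h : Mx U) {z l m : ℂ} (hlm : ‖l - m‖ = 1) (hcr : cr l m ≠ 0) {t : ℝ}
    (ht : t ∈ Rot U z l) :
    Disjoint (Pal U (z + l * cis t)) (Pal U (z + m * cis t)) := by
  rw [Set.disjoint_left]
  intro i hi hi'
  have h1 : ∀ᶠ s in 𝓝 t, i ∈ Pal U (z + l * cis s) := by
    filter_upwards [ht] with s hs
    rw [hs]; exact hi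
  have hcont : Continuous fun s : ℝ => z + l * cis s :=
    continuous_const.add (continuous_const.mul continuous_cis)
  have hd : dist (z + l * cis t) (z + m * cis t) = 1 := by
    rw [dist_eq_norm, show z + l * cis t - (z + m * cis t) = (l - m) * cis t by ring, norm_mul,
      hlm, norm_cis, one_mul]
  have h2 := h.curve_perp (hasDerivAt_rot z l t) hcont h1 hd hi'
  have h3 : (cis t).re ^ 2 + (cis t).im ^ 2 = 1 := by
    have := Complex.sq_norm (cis t)
    rw [norm_cis, Complex.normSq_apply] at this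
    nlinarith
  apply hcr
  simp only [Complex.add_re, Complex.add_im, Complex.mul_re, Complex.mul_im, Complex.I_re,
    Complex.I_im] at h2
  have h4 : cr l m * ((cis t).re ^ 2 + (cis t).im ^ 2) = 0 := by
    unfold cr
    linear_combination -h2
  rwa [h3, mul_one] at h4

/-- **Translation rule**: for a unit pair `z`, `v` the palettes of `z + cis t` and `v + cis t` are
disjoint if the palette of `z + cis t` is locally constant and `cis t` is not on the line -/
theorem Mx.trans_disj (h : Mx U) {z v : ℂ} (hzv : dist z v = 1) {t : ℝ} (ht : t ∈ Rot U z 1)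
    (hcr : cr (cis t) (v - z) ≠ 0) :
    Disjoint (Pal U (z + cis t)) (Pal U (v + cis t)) := by
  rw [Set.disjoint_left]
  intro i hi hi'
  have h1 : ∀ᶠ s in 𝓝 t, i ∈ Pal U (z + 1 * cis s) := by
    have ht' : ∀ᶠ s in 𝓝 t, Pal U (z + 1 * cis s) = Pal U (z + 1 * cis t) := ht
    filter_upwards [ht'] with s hs
    rw [hs, one_mul]; exact hi
  have hcont : Continuous fun s : ℝ => z + 1 * cis s :=
    continuous_const.add (continuous_const.mul continuous_cis)
  have hd : dist (z + 1 * cis t) (v + cis t) = 1 := by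
    rw [dist_eq_norm, show z + 1 * cis t - (v + cis t) = z - v by ring, ← dist_eq_norm, hzv]
  have h2 := h.curve_perp (hasDerivAt_rot z 1 t) hcont h1 hd hi'
  apply hcr
  simp only [Complex.add_re, Complex.add_im, Complex.mul_re, Complex.mul_im, Complex.I_re,
    Complex.I_im, Complex.one_re, Complex.one_im] at h2
  unfold cr
  simp only [Complex.sub_re, Complex.sub_im]
  linear_combination -h2

end Vale.Agent.P032.Six
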